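import Vale.Agent.H20.QF.OuterDefs

namespace QF.Outer

open Finset QF

/-- quadratic character as a hom on units -/
noncomputable def qhom (N p : ℕ) (hp : p.Prime) (h : p ∣ N) : (ZMod N)ˣ →* ℤˣ :=
  haveI : Fact p.Prime := ⟨hp⟩
  ((quadraticChar (ZMod p)).toUnitHom).comp (ZMod.unitsMap h)

theorem qhom_val (N p : ℕ) (hp : p.Prime) (h : p ∣ N) (u : (ZMod N)ˣ) :
    haveI : Fact p.Prime := ⟨hp⟩
    ((qhom N p hp h u : ℤˣ) : ℤ) = quadraticChar (ZMod p) ((u : ZMod N).cast : ZMod p) := by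
  haveI : Fact p.Prime := ⟨hp⟩
  simp [qhom, MulChar.coe_toUnitHom, ZMod.unitsMap_def]

theorem exists_unit (N p q : ℕ) [NeZero N] (hp : p.Prime) (hq : q.Prime) (hpN : p ∣ N) (hqN : q ∣ N)
    (hpq : p ≠ q) (hp2 : p ≠ 2) : ∃ u : (ZMod N)ˣ, qhom N p hp hpN u = -1 ∧ qhom N q hq hqN u = 1 := by
  haveI : Fact p.Prime := ⟨hp⟩
  haveI : Fact q.Prime := ⟨hq⟩
  have hchar : ringChar (ZMod p) ≠ 2 := by
    rw [ZMod.ringChar_zmod_n]; exact hp2
  obtain ⟨b, hb⟩ := quadraticChar_exists_neg_one (F := ZMod p) hchar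
  have hcop : Nat.Coprime p q := (Nat.coprime_primes hp hq).mpr hpq
  have hb0 : b ≠ 0 := by
    rintro rfl
    rw [MulChar.map_zero] at hb
    norm_num at hb
  have hmul : p * q ∣ N := Nat.Coprime.mul_dvd_of_dvd_of_dvd hcop hpN hqN
  obtain ⟨k, hk1, hk2⟩ := Nat.chineseRemainder hcop b.val 1
  have hk3 : ((k : ℕ) : ZMod p) = b := by
    have := (ZMod.natCast_eq_natCast_iff k b.val p).mpr hk1
    rw [this, ZMod.natCast_zmod_val]
  have hk4 : ((k : ℕ) : ZMod q) = 1 := by
    have := (ZMod.natCast_eq_natCast_iff k 1 q).mpr hk2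
    rw [this, Nat.cast_one]
  have hkc : Nat.Coprime k (p * q) := by
    apply Nat.Coprime.mul_right
    · rw [Nat.coprime_comm, hp.coprime_iff_not_dvd]
      intro h
      apply hb0
      rw [← hk3]
      exact (ZMod.natCast_eq_zero_iff k p).mpr h
    · rw [Nat.coprime_comm, hq.coprime_iff_not_dvd]
      intro h
      have h1 : ((k : ℕ) : ZMod q) = 0 := (ZMod.natCast_eq_zero_iff k q).mpr h
      rw [hk4] at h1
      exact one_ne_zero h1
  obtain ⟨u, hu⟩ := ZMod.unitsMap_surjective hmul (ZMod.unitOfCoprime k hkc)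
  have hu2 : (((u : ZMod N).cast : ZMod (p * q))) = (k : ZMod (p * q)) := by
    have := congrArg (fun v : (ZMod (p * q))ˣ => (v : ZMod (p * q))) hu
    simpa [ZMod.unitsMap_def] using this
  have hup : ((u : ZMod N).cast : ZMod p) = b := by
    have h1 : (((u : ZMod N).cast : ZMod (p * q)).cast : ZMod p) = ((u : ZMod N).cast : ZMod p) := by
      have := ZMod.castHom_comp (n := p) (m := p * q) (d := N) (Dvd.intro q rfl) hmul
      exact congrArg (fun f => f (u : ZMod N)) this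
    rw [← h1, hu2, ← hk3]
    rw [ZMod.cast_natCast (Dvd.intro q rfl)]
  have huq : ((u : ZMod N).cast : ZMod q) = 1 := by
    have h1 : (((u : ZMod N).cast : ZMod (p * q)).cast : ZMod q) = ((u : ZMod N).cast : ZMod q) := by
      have := ZMod.castHom_comp (n := q) (m := p * q) (d := N) (Dvd.intro_left p rfl) hmul
      exact congrArg (fun f => f (u : ZMod N)) this
    rw [← h1, hu2, ← hk4]
    rw [ZMod.cast_natCast (Dvd.intro_left p rfl)]
  refine ⟨u, ?_, ?_⟩
  · apply Units.ext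
    rw [qhom_val, hup, hb]; rfl
  · apply Units.ext
    rw [qhom_val, huq, MulChar.map_one]; rfl

theorem four_fiber (N p q : ℕ) [NeZero N] (hp : p.Prime) (hq : q.Prime) (hpN : p ∣ N)
    (hqN : q ∣ N) (hpq : p ≠ q) (hp2 : p ≠ 2) (hq2 : q ≠ 2) :
    4 * (univ.filter fun u : (ZMod N)ˣ => qhom N p hp hpN u = -1 ∧ qhom N q hq hqN u = 1).card
      = Nat.totient N := by
  classical
  set f : (ZMod N)ˣ →* ℤˣ × ℤˣ := (qhom N p hp hpN).prod (qhom N q hq hqN) with hf
  obtain ⟨u, hu1, hu2⟩ := exists_unit N p q hp hq hpN hqN hpq hp2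
  obtain ⟨v, hv1, hv2⟩ := exists_unit N q p hq hp hqN hpN hpq.symm hq2
  have hsurj : Function.Surjective f := by
    rintro ⟨a, b⟩
    rcases Int.units_eq_one_or a with rfl | rfl <;> rcases Int.units_eq_one_or b with rfl | rfl
    · exact ⟨1, by rw [map_one]; rfl⟩
    · exact ⟨v, by simp [hf, hv1, hv2]⟩
    · exact ⟨u, by simp [hf, hu1, hu2]⟩
    · exact ⟨u * v, by simp [hf, hu1, hu2, hv1, hv2]⟩
  have hcard : ∀ y : ℤˣ × ℤˣ, (univ.filter fun g => f g = y).card
      = (univ.filter fun g => f g = ((-1, 1) : ℤˣ × ℤˣ)).card := fun y =>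
    MonoidHom.card_fiber_eq_of_mem_range f (hsurj y) (hsurj _)
  have hsum : (univ : Finset (ZMod N)ˣ).card
      = ∑ y : ℤˣ × ℤˣ, (univ.filter fun g => f g = y).card :=
    Finset.card_eq_sum_card_fiberwise (fun g _ => Finset.mem_univ _)
  rw [Finset.sum_congr rfl (fun y _ => hcard y), Finset.sum_const, Finset.card_univ,
    Finset.card_univ, ZMod.card_units_eq_totient] at hsum
  have h4 : Fintype.card (ℤˣ × ℤˣ) = 4 := by rw [Fintype.card_prod]; rfl
  rw [h4, smul_eq_mul] at hsum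
  rw [hsum]
  congr 1
  apply Finset.card_bij (fun g _ => g)
  · intro g hg
    simp only [Finset.mem_filter, Finset.mem_univ, true_and] at hg ⊢
    simp [hf, hg.1, hg.2]
  · intro a _ b _ h; exact h
  · intro g hg
    simp only [Finset.mem_filter, Finset.mem_univ, true_and] at hg ⊢
    refine ⟨g, ?_, rfl⟩
    have := Prod.ext_iff.mp hg
    simpa [hf] using this

/-- characters and powers -/
theorem qhom_unitOfCoprime (N p a : ℕ) (hp : p.Prime) (hp2 : p ≠ 2) (h : p ∣ N)
    (ha : Nat.Coprime a N) :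
    (qhom N p hp h (ZMod.unitOfCoprime a ha) = 1 ↔ a ^ ((p - 1) / 2) % p = 1) ∧
    (qhom N p hp h (ZMod.unitOfCoprime a ha) = -1 ↔ a ^ ((p - 1) / 2) % p = p - 1) := by
  haveI : Fact p.Prime := ⟨hp⟩
  have hp3 : 2 < p := lt_of_le_of_ne hp.two_le (Ne.symm hp2)
  have hodd : p % 2 = 1 := hp.eq_two_or_odd.resolve_left hp2
  have hhalf : (p - 1) / 2 = p / 2 := by omega
  have h1 : (qhom N p hp h (ZMod.unitOfCoprime a ha) : ℤ) = quadraticChar (ZMod p) (a : ZMod p) := by
    rw [qhom_val]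
    congr 1
    simp only [ZMod.coe_unitOfCoprime]
    exact ZMod.cast_natCast h a
  have ha0 : (a : ZMod p) ≠ 0 := by
    rw [Ne, ZMod.natCast_eq_zero_iff]
    intro h2
    have h3 := Nat.dvd_gcd h2 h
    rw [ha] at h3
    exact hp.one_lt.ne' (Nat.dvd_one.mp h3)
  have h2 : ((a ^ ((p - 1) / 2) : ℕ) : ZMod p) = (quadraticChar (ZMod p) (a : ZMod p) : ℤ) := by
    rw [hhalf, quadraticChar_eq_pow_of_char_ne_two' (F := ZMod p) (by rw [ZMod.ringChar_zmod_n]; exact hp2),
      ZMod.card, Nat.cast_pow]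
  have hne : (1 : ZMod p) ≠ -1 := by
    intro h3
    have h4 : ((2 : ℕ) : ZMod p) = 0 := by
      have : (1 : ZMod p) + 1 = 0 := by nth_rewrite 2 [h3]; ring
      push_cast; linear_combination this
    rw [ZMod.natCast_eq_zero_iff] at h4
    exact absurd (Nat.le_of_dvd (by norm_num) h4) (by omega)
  have hm1 : ((p - 1 : ℕ) : ZMod p) = -1 := by
    rw [Nat.cast_sub hp.one_lt.le, ZMod.natCast_self]; simp
  have hmod1 : a ^ ((p - 1) / 2) % p = 1 ↔ ((a ^ ((p - 1) / 2) : ℕ) : ZMod p) = 1 := by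
    constructor
    · intro h3
      have := (ZMod.natCast_eq_natCast_iff' (a ^ ((p - 1) / 2)) 1 p).mpr
        (by rw [h3, Nat.mod_eq_of_lt hp.one_lt])
      rwa [Nat.cast_one] at this
    · intro h3
      have := (ZMod.natCast_eq_natCast_iff' (a ^ ((p - 1) / 2)) 1 p).mp
        (by rw [h3, Nat.cast_one])
      rwa [Nat.mod_eq_of_lt hp.one_lt] at this
  have hmod2 : a ^ ((p - 1) / 2) % p = p - 1 ↔ ((a ^ ((p - 1) / 2) : ℕ) : ZMod p) = -1 := by
    rw [← hm1, ZMod.natCast_eq_natCast_iff', Nat.mod_eq_of_lt (show p - 1 < p by omega)]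
  rw [hmod1, hmod2, h2]
  have hval : ∀ x : ℤˣ, x = 1 ↔ (x : ℤ) = 1 := fun x => by
    constructor
    · rintro rfl; rfl
    · intro h; exact Units.ext h
  have hval2 : ∀ x : ℤˣ, x = -1 ↔ (x : ℤ) = -1 := fun x => by
    constructor
    · rintro rfl; rfl
    · intro h; exact Units.ext h
  rw [hval, hval2, h1]
  rcases quadraticChar_dichotomy ha0 with h3 | h3
  · rw [h3]
    refine ⟨⟨fun _ => by norm_num, fun _ => rfl⟩, ⟨fun h4 => by norm_num at h4, fun h4 => ?_⟩⟩
    rw [Int.cast_one] at h4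
    exact absurd h4 hne
  · rw [h3]
    refine ⟨⟨fun h4 => by norm_num at h4, fun h4 => ?_⟩, ⟨fun _ => by norm_num, fun _ => rfl⟩⟩
    rw [Int.cast_neg, Int.cast_one] at h4
    exact absurd h4.symm hne

open Classical in
theorem card_good (N p q : ℕ) (hN : 0 < N) (hp : p.Prime) (hq : q.Prime) (hp2 : p ≠ 2)
    (hq2 : q ≠ 2) (hpN : p ∣ N) (hqN : q ∣ N) (hpq : p ≠ q) (B : ℕ) (hB : N ≤ B) :
    4 * #{a ∈ range B | Good N p q a} = Nat.totient N := by
  haveI : NeZero N := ⟨hN.ne'⟩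
  rw [← four_fiber N p q hp hq hpN hqN hpq hp2 hq2]
  congr 1
  apply Finset.card_bij' (fun a _ => if h : Nat.Coprime a N then ZMod.unitOfCoprime a h else 1)
    (fun u _ => (u : ZMod N).val)
  · intro a ha
    simp only [Finset.mem_filter, Finset.mem_range] at ha
    obtain ⟨_, ha1, ha2, ha3, ha4⟩ := ha
    simp only [Finset.mem_filter, Finset.mem_univ, true_and]
    rw [dif_pos ha2]
    exact ⟨((qhom_unitOfCoprime N p a hp hp2 hpN ha2).2).mpr ha3,
      ((qhom_unitOfCoprime N q a hq hq2 hqN ha2).1).mpr ha4⟩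
  · intro u hu
    simp only [Finset.mem_filter, Finset.mem_univ, true_and] at hu
    have hc : Nat.Coprime (u : ZMod N).val N := ZMod.val_coe_unit_coprime u
    have hu2 : ZMod.unitOfCoprime _ hc = u := by
      apply Units.ext
      simp
    rw [← hu2] at hu
    simp only [Finset.mem_filter, Finset.mem_range]
    have hlt : (u : ZMod N).val < N := ZMod.val_lt _
    refine ⟨by omega, hlt, hc, ?_, ?_⟩
    · exact ((qhom_unitOfCoprime N p _ hp hp2 hpN hc).2).mp hu.1
    · exact ((qhom_unitOfCoprime N q _ hq hq2 hqN hc).1).mp hu.2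
  · intro a ha
    simp only [Finset.mem_filter, Finset.mem_range] at ha
    obtain ⟨_, ha1, ha2, ha3, ha4⟩ := ha
    have ha2' : Nat.Coprime a N := ha2
    simp only [dif_pos ha2', ZMod.coe_unitOfCoprime]
    exact ZMod.val_natCast_of_lt ha1
  · intro u hu
    have hc : Nat.Coprime (u : ZMod N).val N := ZMod.val_coe_unit_coprime u
    simp only [dif_pos hc]
    apply Units.ext
    simp

end QF.Outer
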